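import Vale.Agent.P339.H283.Main
import Vale.Agent.P342.H472.TM2
import Vale.Agent.Lib.PCP.PT.Fin

/-!
P339: the alphabets. NP-hardness of `Gap_q(1, s)` for one `q` gives it for all large `q`, and for
all multiples of `q`.
-/

namespace Vale.Agent.P339.R2.H375.Al

open Finset Vale.Agent.Lib.PCP Vale.Agent.Lib.PolyTime Vale.Agent.P339.H283

/-- The data of a constraint. -/
abbrev Rw : Type := ℕ × ℕ × List ℕ × ℕ

/-! ### Transformations of games -/

/-- A transformation of games which preserves hardness. -/
theorem gapHard_map {q q' : ℕ} {s s' : ℝ} (F : Game q → Game q') (P : List Rw → List Rw)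
    (hP : PT ∅ P) (hF : ∀ G, (F G).cons.map raw = P (G.cons.map raw))
    (hc : ∀ G, G.value ≤ (F G).value) (hs : ∀ G, G.value ≤ s → (F G).value ≤ s')
    (h : GapHard q 1 s) : GapHard q' 1 s' := by
  obtain ⟨f, ⟨M, -⟩, hf⟩ := h
  obtain ⟨g, hg, hg'⟩ := Vale.Agent.P342.Red.exists_FP_of_tm2 (A := ∅) M
  obtain ⟨p, hp, hp'⟩ := hP
  refine ⟨fun φ => F (f φ), ?_, fun φ => ⟨fun hφ => ((hf φ).1 hφ).trans (hc _),
    fun hφ => hs _ ((hf φ).2 hφ)⟩⟩
  refine exists_tm2_of_polyTimeFun _ _ _ (fun w => p (g w)) (polyTimeFun_iff.2 (hp.comp hg))
    fun φ => ?_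
  rw [hg', gameW_eq, gameW_eq, hF]
  exact hp' _

section gen

variable {q q' m : ℕ}

/-- The constraint with a new table. -/
def trC (T : (Fin (2 * q) → Fin q) → Fin (2 * q') → Fin q') (c : Constraint q) :
    Constraint q' := ⟨c.u, c.v, T c.π, c.w⟩

/-- The list of the constraints with new tables. -/
def trL (T : Fin m → (Fin (2 * q) → Fin q) → Fin (2 * q') → Fin q') (l : List (Constraint q)) :
    List (Constraint q') := l.flatMap fun c => (List.finRange m).map fun t => trC (T t) c

lemma weight_append {r : ℕ} (l l' : List (Constraint r)) :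
    weight (l ++ l') = weight l + weight l' := by
  unfold weight
  rw [List.map_append, List.sum_append]

lemma weight_cons {r : ℕ} (c : Constraint r) (l : List (Constraint r)) :
    weight (c :: l) = c.w + weight l := by
  unfold weight
  rw [List.map_cons, List.sum_cons]

lemma weight_filter_map (T : Fin m → (Fin (2 * q) → Fin q) → Fin (2 * q') → Fin q')
    (c : Constraint q) (p : Constraint q' → Bool) (L : List (Fin m)) :
    weight ((L.map fun t => trC (T t) c).filter p) =
      (L.countP fun t => p (trC (T t) c)) * c.w := by
  induction L with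
  | nil => simp [weight]
  | cons t L ih =>
    rw [List.map_cons, List.filter_cons, List.countP_cons]
    by_cases h : p (trC (T t) c) = true
    · rw [if_pos h, if_pos h, weight_cons, ih, add_mul, one_mul, add_comm]
      rfl
    · rw [if_neg h, if_neg h, ih, add_zero]

lemma weight_map (T : Fin m → (Fin (2 * q) → Fin q) → Fin (2 * q') → Fin q')
    (c : Constraint q) : weight ((List.finRange m).map fun t => trC (T t) c) = m * c.w := by
  have h := weight_filter_map T c (fun _ => true) (List.finRange m)
  rw [List.filter_true] at h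
  rw [h, List.countP_true, List.length_finRange]

lemma weight_trL (T : Fin m → (Fin (2 * q) → Fin q) → Fin (2 * q') → Fin q')
    (l : List (Constraint q)) : weight (trL T l) = m * weight l := by
  induction l with
  | nil => simp [trL, weight]
  | cons c l ih =>
    have h : trL T (c :: l) = ((List.finRange m).map fun t => trC (T t) c) ++ trL T l := rfl
    rw [h, weight_append, weight_map, ih, weight_cons, mul_add]

/-- The game with new tables. -/
def trG (hm : 0 < m) (T : Fin m → (Fin (2 * q) → Fin q) → Fin (2 * q') → Fin q')
    (hT : ∀ t π, (∀ b : Fin q, (univ.filter fun a => π a = b).card = 2) →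
      ∀ b : Fin q', (univ.filter fun a => T t π a = b).card = 2) (G : Game q) : Game q' where
  cons := trL T G.cons
  two_to_one := by
    intro e he b
    unfold trL at he
    rw [List.mem_flatMap] at he
    obtain ⟨c, hc, he⟩ := he
    rw [List.mem_map] at he
    obtain ⟨t, -, rfl⟩ := he
    exact hT t c.π (G.two_to_one c hc) b
  weight_pos := by
    rw [weight_trL]
    exact Nat.mul_pos hm G.weight_pos

/-- The upper bound. -/
lemma trG_value_le (hm : 0 < m) (hq' : 0 < q')
    {T : Fin m → (Fin (2 * q) → Fin q) → Fin (2 * q') → Fin q'}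
    {hT : ∀ t π, (∀ b : Fin q, (univ.filter fun a => π a = b).card = 2) →
      ∀ b : Fin q', (univ.filter fun a => T t π a = b).card = 2}
    (α : Fin (2 * q') → Fin (2 * q)) (β : Fin q' → Fin q) {κ : ℕ} (hκ : κ ≤ m)
    (h1 : ∀ π a b, π (α a) ≠ β b → ((List.finRange m).countP fun t => T t π a = b) ≤ κ)
    {G : Game q} {s : ℝ} (hs : G.value ≤ s) :
    (trG hm T hT G).value ≤ s + κ * (1 - s) / m := by
  refine Game.value_le _ hq' fun A B => ?_
  set A1 : ℕ → Fin (2 * q) := fun u => α (A u) with hA1
  set B1 : ℕ → Fin q := fun v => β (B v) with hB1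
  have key : ∀ l : List (Constraint q), (weight ((trL T l).filter fun e => e.π (A e.u) = B e.v)) ≤
      (m - κ) * weight (l.filter fun e => e.π (A1 e.u) = B1 e.v) + κ * weight l := by
    intro l
    induction l with
    | nil => simp [trL, weight]
    | cons c l ih =>
      have h : trL T (c :: l) = ((List.finRange m).map fun t => trC (T t) c) ++ trL T l := rfl
      rw [h, List.filter_append, weight_append, weight_filter_map, weight_cons, List.filter_cons]
      by_cases hsat : c.π (A1 c.u) = B1 c.v
      · rw [if_pos (decide_eq_true hsat), weight_cons]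
        have h2 : ((List.finRange m).countP fun t =>
            decide ((trC (T t) c).π (A (trC (T t) c).u) = B (trC (T t) c).v)) ≤ m := by
          refine List.countP_le_length.trans (le_of_eq (List.length_finRange))
        have h3 := Nat.mul_le_mul_right c.w h2
        have h4 : m * c.w = (m - κ) * c.w + κ * c.w := by
          rw [← add_mul, Nat.sub_add_cancel hκ]
        rw [mul_add, mul_add]
        omega
      · rw [if_neg (by simpa using hsat)]
        have h2 : ((List.finRange m).countP fun t =>
            decide ((trC (T t) c).π (A (trC (T t) c).u) = B (trC (T t) c).v)) ≤ κ :=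
          h1 c.π (A c.u) (B c.v) hsat
        have h3 := Nat.mul_le_mul_right c.w h2
        rw [mul_add]
        omega
  have hW : (0 : ℝ) < weight G.cons := by exact_mod_cast G.weight_pos
  have hmR : (0 : ℝ) < m := by exact_mod_cast hm
  have hp : G.prob A1 B1 ≤ s := by
    refine le_trans ?_ hs
    unfold Game.value
    refine le_csSup ⟨1, ?_⟩ ⟨A1, B1, rfl⟩
    rintro p ⟨A, B, rfl⟩
    exact G.prob_le_one A B
  unfold Game.prob at hp ⊢
  rw [div_le_iff₀ hW] at hp
  have hcons : (trG hm T hT G).cons = trL T G.cons := rfl
  rw [hcons, weight_trL]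
  have hk : (weight ((trL T G.cons).filter fun e => e.π (A e.u) = B e.v) : ℝ) ≤
      (m - κ) * weight (G.cons.filter fun e => e.π (A1 e.u) = B1 e.v) +
        κ * weight G.cons := by
    have h2 := key G.cons
    have h3 : ((m - κ : ℕ) : ℝ) = m - κ := Nat.cast_sub hκ
    rw [← h3]
    exact_mod_cast h2
  push_cast
  rw [div_le_iff₀ (by positivity)]
  have h5 : (0 : ℝ) ≤ m - κ := by
    have : (κ : ℝ) ≤ m := by exact_mod_cast hκ
    linarith
  have h6 := mul_le_mul_of_nonneg_left hp h5
  have h7 : (s + κ * (1 - s) / m) * (m * (weight G.cons : ℝ)) =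
      (m - κ) * (s * weight G.cons) + κ * weight G.cons := by
    field_simp
    ring
  rw [h7]
  linarith

/-- The lower bound. -/
lemma le_trG_value (hm : 0 < m) (hq : 0 < q)
    {T : Fin m → (Fin (2 * q) → Fin q) → Fin (2 * q') → Fin q'}
    {hT : ∀ t π, (∀ b : Fin q, (univ.filter fun a => π a = b).card = 2) →
      ∀ b : Fin q', (univ.filter fun a => T t π a = b).card = 2}
    (α : Fin (2 * q) → Fin (2 * q')) (β : Fin q → Fin q')
    (h1 : ∀ t π a b, π a = b → T t π (α a) = β b) (G : Game q) :
    G.value ≤ (trG hm T hT G).value := by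
  refine Game.value_le _ hq fun A B => ?_
  have h2 : G.prob A B ≤ (trG hm T hT G).prob (fun u => α (A u)) (fun v => β (B v)) := by
    have key : ∀ l : List (Constraint q), m * weight (l.filter fun e => e.π (A e.u) = B e.v) ≤
        weight ((trL T l).filter fun e => e.π (α (A e.u)) = β (B e.v)) := by
      intro l
      induction l with
      | nil => simp [trL, weight]
      | cons c l ih =>
        have h : trL T (c :: l) = ((List.finRange m).map fun t => trC (T t) c) ++ trL T l := rfl
        rw [h, List.filter_append, weight_append, weight_filter_map, List.filter_cons]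
        by_cases hsat : c.π (A c.u) = B c.v
        · rw [if_pos (decide_eq_true hsat), weight_cons, mul_add]
          have h3 : ((List.finRange m).countP fun t =>
              decide ((trC (T t) c).π (α (A (trC (T t) c).u)) = β (B (trC (T t) c).v))) = m := by
            rw [List.countP_eq_length.2, List.length_finRange]
            intro t _
            exact decide_eq_true (h1 t c.π _ _ hsat)
          rw [h3]
          omega
        · rw [if_neg (by simpa using hsat)]
          omega
    have hW : (0 : ℝ) < weight G.cons := by exact_mod_cast G.weight_pos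
    have hmR : (0 : ℝ) < m := by exact_mod_cast hm
    unfold Game.prob
    have hcons : (trG hm T hT G).cons = trL T G.cons := rfl
    have hmW : (0 : ℝ) < ((m * weight G.cons : ℕ) : ℝ) := by
      push_cast
      exact mul_pos hmR hW
    rw [hcons, weight_trL, div_le_div_iff₀ hW hmW]
    have hk := key G.cons
    have hk' : (m : ℝ) * (weight (G.cons.filter fun e => e.π (A e.u) = B e.v) : ℝ) ≤
        weight ((trL T G.cons).filter fun e => e.π (α (A e.u)) = β (B e.v)) := by
      exact_mod_cast hk
    push_cast
    have h4 := mul_le_mul_of_nonneg_right hk' hW.le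
    linarith
  refine h2.trans (le_csSup ⟨1, ?_⟩ ⟨_, _, rfl⟩)
  rintro p ⟨A, B, rfl⟩
  exact Game.prob_le_one _ A B

end gen

end Vale.Agent.P339.R2.H375.Al
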