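import Vale.Agent.P339.R2.H375.Alph

/-!
P339: the alphabets: more labels.
-/

namespace Vale.Agent.P339.R2.H375.Al

open Finset Vale.Agent.Lib.PCP Vale.Agent.Lib.PolyTime Vale.Agent.P339.H283

/-! ### `m` more labels on the right -/

section ext

variable {q m : ℕ}

/-- The table with `m` more labels on the right and `2 * m` more labels on the left. -/
def ext (hm : 0 < m) (t : Fin m) (π : Fin (2 * q) → Fin q) (a : Fin (2 * (q + m))) :
    Fin (q + m) :=
  if h : (a : ℕ) < 2 * q then ⟨(π ⟨a, h⟩ : ℕ), by have := (π ⟨a, h⟩).2; omega⟩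
  else ⟨q + (((a : ℕ) - 2 * q) / 2 + t) % m, by
    have := Nat.mod_lt (((a : ℕ) - 2 * q) / 2 + t) hm
    omega⟩

lemma ext_lt (hm : 0 < m) (t : Fin m) (π : Fin (2 * q) → Fin q) {a : Fin (2 * (q + m))}
    (h : (a : ℕ) < 2 * q) : (ext hm t π a : ℕ) = π ⟨a, h⟩ := by
  unfold ext
  rw [dif_pos h]

lemma ext_ge (hm : 0 < m) (t : Fin m) (π : Fin (2 * q) → Fin q) {a : Fin (2 * (q + m))}
    (h : ¬ (a : ℕ) < 2 * q) : (ext hm t π a : ℕ) = q + (((a : ℕ) - 2 * q) / 2 + t) % m := by
  unfold ext
  rw [dif_neg h]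

lemma mod_iff {m y t b : ℕ} (hy : y < m) (ht : t < m) (hb : b < m) :
    (y + t) % m = b ↔ y = if t ≤ b then b - t else b + m - t := by
  have h1 : (y + t) % m = if y + t < m then y + t else y + t - m := by
    split_ifs with h
    · exact Nat.mod_eq_of_lt h
    · rw [Nat.mod_eq_sub_mod (by omega), Nat.mod_eq_of_lt (by omega)]
  rw [h1]
  split_ifs <;> omega

lemma ext_two (hm : 0 < m) (t : Fin m) (π : Fin (2 * q) → Fin q)
    (hπ : ∀ b : Fin q, (univ.filter fun a => π a = b).card = 2) (b : Fin (q + m)) :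
    (univ.filter fun a => ext hm t π a = b).card = 2 := by
  by_cases hb : (b : ℕ) < q
  · refine Eq.trans ?_ (hπ ⟨b, hb⟩)
    symm
    refine Finset.card_bij (fun (a : Fin (2 * q)) _ =>
      (⟨(a : ℕ), by have := a.2; omega⟩ : Fin (2 * (q + m)))) ?_ ?_ ?_
    · intro a ha
      rw [Finset.mem_filter] at ha ⊢
      refine ⟨Finset.mem_univ _, ?_⟩
      apply Fin.ext
      rw [ext_lt hm t π (a := ⟨(a : ℕ), _⟩) a.2]
      exact congrArg Fin.val ha.2
    · intro a _ a' _ h
      have h2 := congrArg Fin.val h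
      exact Fin.ext h2
    · intro a ha
      rw [Finset.mem_filter] at ha
      have h2 : (ext hm t π a : ℕ) = b := congrArg Fin.val ha.2
      have h3 : (a : ℕ) < 2 * q := by
        by_contra h
        rw [ext_ge hm t π h] at h2
        omega
      refine ⟨⟨a, h3⟩, ?_, rfl⟩
      rw [Finset.mem_filter]
      refine ⟨Finset.mem_univ _, ?_⟩
      apply Fin.ext
      rw [ext_lt hm t π h3] at h2
      exact h2
  · have hb2 := b.2
    have ht := t.2
    obtain ⟨x, hx⟩ : ∃ x, x = if (t : ℕ) ≤ (b : ℕ) - q then (b : ℕ) - q - t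
      else (b : ℕ) - q + m - t := ⟨_, rfl⟩
    have hxm : x < m := by
      rw [hx]
      split_ifs <;> omega
    rw [Finset.card_eq_two]
    refine ⟨⟨2 * q + 2 * x, by omega⟩, ⟨2 * q + 2 * x + 1, by omega⟩, ?_, ?_⟩
    · intro h
      have := congrArg Fin.val h
      dsimp only at this
      omega
    · ext a
      rw [Finset.mem_filter, Finset.mem_insert, Finset.mem_singleton]
      have ha := a.2
      have h1 : ext hm t π a = b ↔ ((a : ℕ) = 2 * q + 2 * x ∨ (a : ℕ) = 2 * q + 2 * x + 1) := by
        by_cases h : (a : ℕ) < 2 * q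
        · constructor
          · intro h2
            have h3 := congrArg Fin.val h2
            rw [ext_lt hm t π h] at h3
            have := (π ⟨a, h⟩).2
            omega
          · omega
        · have h4 := mod_iff (y := ((a : ℕ) - 2 * q) / 2) (b := (b : ℕ) - q) (by omega) ht
            (by omega)
          rw [← hx] at h4
          rw [Fin.ext_iff, ext_ge hm t π h]
          constructor
          · intro h2
            have h5 := h4.1 (by omega)
            omega
          · intro h2
            have h5 := h4.2 (by omega)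
            omega
      constructor
      · rintro ⟨_, h2⟩
        rcases h1.1 h2 with h3 | h3
        · exact Or.inl (Fin.ext h3)
        · exact Or.inr (Fin.ext h3)
      · intro h2
        refine ⟨Finset.mem_univ _, h1.2 ?_⟩
        rcases h2 with h3 | h3
        · exact Or.inl (congrArg Fin.val h3)
        · exact Or.inr (congrArg Fin.val h3)

lemma countP_le_one {α : Type*} (L : List α) (hn : L.Nodup) (p : α → Bool)
    (h : ∀ x y, p x = true → p y = true → x = y) : L.countP p ≤ 1 := by
  rw [List.countP_eq_length_filter]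
  have hn' := hn.filter p
  rcases hL : L.filter p with _ | ⟨a, _ | ⟨b, l⟩⟩
  · simp
  · simp
  · exfalso
    have ha : a ∈ L.filter p := by rw [hL]; simp
    have hb : b ∈ L.filter p := by rw [hL]; simp
    have hab := h a b (List.mem_filter.1 ha).2 (List.mem_filter.1 hb).2
    rw [hL, hab] at hn'
    simp at hn'

/-- The label of the old game. -/
def oldL (hq : 0 < q) (a : Fin (2 * (q + m))) : Fin (2 * q) :=
  if h : (a : ℕ) < 2 * q then ⟨a, h⟩ else ⟨0, by omega⟩

/-- The label of the old game. -/
def oldR (hq : 0 < q) (b : Fin (q + m)) : Fin q :=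
  if h : (b : ℕ) < q then ⟨b, h⟩ else ⟨0, hq⟩

lemma ext_count (hm : 0 < m) (hq : 0 < q) (π : Fin (2 * q) → Fin q) (a : Fin (2 * (q + m)))
    (b : Fin (q + m)) (h : π (oldL hq a) ≠ oldR hq b) :
    ((List.finRange m).countP fun t => ext hm t π a = b) ≤ 1 := by
  refine countP_le_one _ (List.nodup_finRange m) _ fun t t' h1 h2 => ?_
  have h1 : ext hm t π a = b := by simpa using h1
  have h2 : ext hm t' π a = b := by simpa using h2
  have e1 := congrArg Fin.val h1
  have e2 := congrArg Fin.val h2
  by_cases ha : (a : ℕ) < 2 * q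
  · exfalso
    apply h
    rw [ext_lt hm t π ha] at e1
    have hb : (b : ℕ) < q := by
      rw [← e1]
      exact (π ⟨a, ha⟩).2
    unfold oldL oldR
    rw [dif_pos ha, dif_pos hb]
    exact Fin.ext e1
  · rw [ext_ge hm t π ha] at e1
    rw [ext_ge hm t' π ha] at e2
    have ha2 := a.2
    have hb2 := b.2
    have ht := t.2
    have ht' := t'.2
    have f1 := (mod_iff (y := (t : ℕ)) (t := ((a : ℕ) - 2 * q) / 2) (b := (b : ℕ) - q) ht (by omega)
      (by omega)).1 (by rw [add_comm]; omega)
    have f2 := (mod_iff (y := (t' : ℕ)) (t := ((a : ℕ) - 2 * q) / 2) (b := (b : ℕ) - q) ht'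
      (by omega) (by omega)).1 (by rw [add_comm]; omega)
    exact Fin.ext (f1.trans f2.symm)

/-- The new part of the table. -/
def tabE (q m : ℕ) (t : ℕ) : List ℕ := (List.range (2 * m)).map fun i => q + (i / 2 + t) % m

lemma ofFn_ext (hm : 0 < m) (t : Fin m) (π : Fin (2 * q) → Fin q) :
    List.ofFn (fun a => (ext hm t π a : ℕ)) = List.ofFn (fun a => (π a : ℕ)) ++ tabE q m t := by
  unfold tabE
  refine List.ext_getElem ?_ fun i h1 h2 => ?_
  · simp
    omega
  · rw [List.getElem_ofFn, List.getElem_append]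
    rw [List.length_ofFn] at h1
    by_cases h : i < 2 * q
    · rw [ext_lt hm t π (a := ⟨i, h1⟩) h, dif_pos (by simpa using h), List.getElem_ofFn]
    · rw [ext_ge hm t π (a := ⟨i, h1⟩) h, dif_neg (by simpa using h)]
      simp

/-- The game with `m` more labels. -/
def extG (hm : 0 < m) (G : Game q) : Game (q + m) :=
  trG hm (ext hm) (fun t π h => ext_two hm t π h) G

/-- The data of the game with `m` more labels. -/
def extP (q m : ℕ) (l : List Rw) : List Rw :=
  l.flatMap fun r => (List.finRange m).map fun t : Fin m =>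
    ((r.1, r.2.1, r.2.2.1 ++ tabE q m (t : ℕ), r.2.2.2) : Rw)

lemma extG_raw (hm : 0 < m) (G : Game q) :
    (extG hm G).cons.map raw = extP q m (G.cons.map raw) := by
  have h : (extG hm G).cons = trL (ext hm) G.cons := rfl
  rw [h]
  unfold trL extP
  rw [List.map_flatMap, List.flatMap_map]
  refine List.flatMap_congr fun c _ => ?_
  rw [List.map_map]
  refine List.map_congr_left fun t _ => ?_
  unfold Function.comp trC raw
  dsimp only
  rw [ofFn_ext]

lemma extP_PT (q m : ℕ) : PT ∅ (extP q m) := by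
  unfold extP
  refine PT.flatMap (f := fun (_ : List Rw) (r : Rw) => (List.finRange m).map fun t : Fin m =>
    ((r.1, r.2.1, r.2.2.1 ++ tabE q m (t : ℕ), r.2.2.2) : Rw)) PT.id ?_
  refine PT.mapConst (List.finRange m) (f := fun (t : Fin m) (p : List Rw × Rw) =>
    ((p.2.1, p.2.2.1, p.2.2.2.1 ++ tabE q m (t : ℕ), p.2.2.2.2) : Rw)) fun t _ => ?_
  have hr : PT (∅ : Set Word) (fun p : List Rw × Rw => p.2) := PT.snd'
  exact hr.fst.pair (hr.snd.fst.pair ((PT.append hr.snd.snd.fst (PT.const _)).pair hr.snd.snd.snd))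

/-- **More labels.** -/
theorem GapHard_add (hq : 0 < q) (hm : 0 < m) {s : ℝ} (h : GapHard q 1 s) :
    GapHard (q + m) 1 (s + (1 - s) / m) := by
  refine gapHard_map (extG hm) (extP q m) (extP_PT q m) (extG_raw hm) (fun G => ?_)
    (fun G hG => ?_) h
  · refine le_trG_value hm hq (fun a => ⟨(a : ℕ), by have := a.2; omega⟩)
      (fun b => ⟨(b : ℕ), by have := b.2; omega⟩) (fun t π a b hab => ?_) G
    apply Fin.ext
    rw [ext_lt hm t π (a := ⟨(a : ℕ), _⟩) a.2]
    exact congrArg Fin.val hab
  · have h2 := trG_value_le (m := m) hm (by omega : 0 < q + m)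
      (T := ext hm) (hT := fun t π h => ext_two hm t π h) (oldL hq) (oldR hq) (κ := 1) hm
      (fun π a b hab => ext_count hm hq π a b hab) hG
    rw [Nat.cast_one, one_mul] at h2
    exact h2

end ext

end Vale.Agent.P339.R2.H375.Al
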