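import Vale.Agent.P339.R2.H375.CN
import Vale.Agent.P339.R2.H376.Inner
import Vale.Agent.P339.R2.H95.Main2

/-!
P339: NP-hardness of `Gap_q(1, s)` for every `s > (10 + √2) / 14`, with `q = q(s)`: assembly.
-/

namespace Vale.Agent.P339.R2.H375

open Finset Vale.Agent.Lib.PCP Vale.Agent.Lib.PCP.HA Vale.Agent.P339.H283 Vale.Agent.P339.H937

/-- The inner estimate. -/
theorem inner2_all (l k nA : ℕ) (hl : 0 < l) (hk : NeZero k) : H95.Inner2 l k nA := by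
  intro G l1 r1 hr lC c d c1 ρ δ WC WA K0 h1 h2 h3 h4 h5 h6 h7 h8 h9 h10 h11
  exact H376.inner2_of hl (fun R j w θ0 θ1 c hc => H206.exists_IsL R j w θ0 θ1 hc)
    (fun R j w θ0 θ1 H c hc hL => H206.sum_mass_le R j w θ0 θ1 hc hL)
    (fun R j w θ0 θ1 a1 a2 a3 hR H c ρ δ b1 b2 b3 b4 b5 b6 b7 L =>
      vCN_le a1 a2 a3 hR b1 b2 b3 b4 b5 b6 b7 L)
    (fun R j w θ0 θ1 a1 a2 hR H c d b1 b2 G HG c1 c2 c3 c4 c5 L =>
      H620.vAN_le a1 a2 hR b1 b2 c1 c2 c3 c4 c5 L)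
    G l1 r1 hr lC h1 h2 h3 h4 h5 h6 h7 h8 h9 h10 h11

/-- **NP-hardness of `Gap_q(1, s)` for every `s > (10 + √2) / 14`.** -/
theorem gapHard2 {s : ℝ} (hs : (10 + Real.sqrt 2) / 14 < s) :
    ∃ q : ℕ, 2 ≤ q ∧ GapHard q 1 s := H95.gapHard2_of inner2_all hs

/-- **The threshold is at most `(10 + √2) / 14`.** -/
theorem sStar_le2 : sStar ≤ (10 + Real.sqrt 2) / 14 := H95.sStar_le2_of inner2_all

end Vale.Agent.P339.R2.H375
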