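import Vale.Agent.P339.R2.H375.Alph2
import Vale.Agent.P339.R2.H375.Final

/-!
P339: the alphabets: multiples, and all large alphabets.
-/

namespace Vale.Agent.P339.R2.H375.Al

open Finset Vale.Agent.Lib.PCP Vale.Agent.Lib.PolyTime Vale.Agent.P339.H283

/-! ### `k` copies of the labels -/

section mul

variable {q k : ℕ}

/-- The table with `k` copies of the labels on both sides. -/
def cop (hq : 0 < q) (_ : Fin 1) (π : Fin (2 * q) → Fin q) (a : Fin (2 * (k * q))) :
    Fin (k * q) :=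
  ⟨(π ⟨(a : ℕ) % (2 * q), Nat.mod_lt _ (by omega)⟩ : ℕ) + q * ((a : ℕ) / (2 * q)), by
    have h1 : (a : ℕ) / (2 * q) < k := by
      rw [Nat.div_lt_iff_lt_mul (by omega)]
      have := a.2
      calc (a : ℕ) < 2 * (k * q) := this
        _ = k * (2 * q) := by ring
    have h2 := (π ⟨(a : ℕ) % (2 * q), Nat.mod_lt _ (by omega)⟩).2
    have h3 : q * ((a : ℕ) / (2 * q) + 1) ≤ q * k := Nat.mul_le_mul_left q h1
    have h4 : q * k = k * q := mul_comm q k
    rw [mul_add, mul_one] at h3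
    omega⟩

lemma cop_val (hq : 0 < q) (t : Fin 1) (π : Fin (2 * q) → Fin q) (a : Fin (2 * (k * q))) :
    (cop hq t π a : ℕ) =
      (π ⟨(a : ℕ) % (2 * q), Nat.mod_lt _ (by omega)⟩ : ℕ) + q * ((a : ℕ) / (2 * q)) := rfl

lemma cop_iff (hq : 0 < q) (t : Fin 1) (π : Fin (2 * q) → Fin q) (a : Fin (2 * (k * q)))
    (b : Fin (k * q)) : cop hq t π a = b ↔
      π ⟨(a : ℕ) % (2 * q), Nat.mod_lt _ (by omega)⟩ = ⟨(b : ℕ) % q, Nat.mod_lt _ hq⟩ ∧
        (a : ℕ) / (2 * q) = (b : ℕ) / q := by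
  rw [Fin.ext_iff, Fin.ext_iff, cop_val]
  have h2 := (π ⟨(a : ℕ) % (2 * q), Nat.mod_lt _ (by omega)⟩).2
  constructor
  · intro h
    constructor
    · rw [← h]
      dsimp only
      rw [Nat.add_mul_mod_self_left, Nat.mod_eq_of_lt h2]
    · rw [← h, Nat.add_mul_div_left _ _ hq, Nat.div_eq_of_lt h2, zero_add]
  · rintro ⟨h, h'⟩
    rw [h, h']
    exact Nat.mod_add_div _ _

lemma cop_two (hq : 0 < q) (t : Fin 1) (π : Fin (2 * q) → Fin q)
    (hπ : ∀ b : Fin q, (univ.filter fun a => π a = b).card = 2) (b : Fin (k * q)) :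
    (univ.filter fun a => cop hq t π a = b).card = 2 := by
  refine Eq.trans ?_ (hπ ⟨(b : ℕ) % q, Nat.mod_lt _ hq⟩)
  have hb : (b : ℕ) / q < k := by
    rw [Nat.div_lt_iff_lt_mul hq]
    exact b.2
  refine Finset.card_bij (fun (a : Fin (2 * (k * q))) _ =>
    (⟨(a : ℕ) % (2 * q), Nat.mod_lt _ (by omega)⟩ : Fin (2 * q))) ?_ ?_ ?_
  · intro a ha
    rw [Finset.mem_filter] at ha ⊢
    exact ⟨Finset.mem_univ _, ((cop_iff hq t π a b).1 ha.2).1⟩
  · intro a ha a' ha' h
    rw [Finset.mem_filter] at ha ha'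
    have h1 := ((cop_iff hq t π a b).1 ha.2).2
    have h2 := ((cop_iff hq t π a' b).1 ha'.2).2
    have h3 := congrArg Fin.val h
    dsimp only at h3
    apply Fin.ext
    rw [← Nat.mod_add_div (a : ℕ) (2 * q), ← Nat.mod_add_div (a' : ℕ) (2 * q), h3, h1, h2]
  · intro a ha
    rw [Finset.mem_filter] at ha
    have h1 : (a : ℕ) + 2 * q * ((b : ℕ) / q) < 2 * (k * q) := by
      have h3 : 2 * q * ((b : ℕ) / q + 1) ≤ 2 * q * k := Nat.mul_le_mul_left _ hb
      have h4 := a.2
      have h5 : 2 * (k * q) = 2 * q * k := by ring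
      rw [mul_add, mul_one] at h3
      omega
    have h2 : ((a : ℕ) + 2 * q * ((b : ℕ) / q)) % (2 * q) = a := by
      rw [Nat.add_mul_mod_self_left, Nat.mod_eq_of_lt a.2]
    refine ⟨⟨(a : ℕ) + 2 * q * ((b : ℕ) / q), h1⟩, ?_, Fin.ext h2⟩
    rw [Finset.mem_filter]
    refine ⟨Finset.mem_univ _, (cop_iff hq t π _ b).2 ⟨?_, ?_⟩⟩
    · have h3 : (⟨((a : ℕ) + 2 * q * ((b : ℕ) / q)) % (2 * q), Nat.mod_lt _ (by omega)⟩ :
          Fin (2 * q)) = a := Fin.ext h2
      exact (congrArg π h3).trans ha.2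
    · dsimp only
      rw [Nat.add_mul_div_left _ _ (by omega), Nat.div_eq_of_lt a.2, zero_add]

/-- The new table. -/
def tabM (q k : ℕ) (l : List ℕ) : List ℕ := (List.range k).flatMap fun d => l.map (· + q * d)

lemma length_tabM (l : List ℕ) : (tabM q k l).length = k * l.length := by
  unfold tabM
  induction k with
  | zero => simp
  | succ k ih => rw [List.range_succ, List.flatMap_append, List.length_append, ih]; simp; ring

lemma tabM_getElem (l : List ℕ) (hl : 0 < l.length) (i : ℕ) (h : i < (tabM q k l).length) :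
    (tabM q k l)[i] = l[i % l.length]'(Nat.mod_lt _ hl) + q * (i / l.length) := by
  induction k with
  | zero => simp [tabM] at h
  | succ k ih =>
    have h1 : tabM q (k + 1) l = tabM q k l ++ l.map (· + q * k) := by
      unfold tabM
      rw [List.range_succ, List.flatMap_append]
      simp
    have hk := length_tabM (q := q) (k := k) l
    have hk1 := length_tabM (q := q) (k := k + 1) l
    rw [hk1, add_mul, one_mul] at h
    simp only [h1]
    rw [List.getElem_append]
    by_cases hi : i < (tabM q k l).length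
    · rw [dif_pos hi]
      exact ih hi
    · rw [dif_neg hi, List.getElem_map]
      have h2 : i = (i - k * l.length) + k * l.length := by omega
      have h3 : i - k * l.length < l.length := by omega
      have h4 : i % l.length = i - k * l.length := by
        conv_lhs => rw [h2]
        rw [Nat.add_mul_mod_self_right, Nat.mod_eq_of_lt h3]
      have h5 : i / l.length = k := by
        conv_lhs => rw [h2]
        rw [Nat.add_mul_div_right _ _ hl, Nat.div_eq_of_lt h3, zero_add]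
      simp only [h4, h5, hk]

lemma ofFn_cop (hq : 0 < q) (t : Fin 1) (π : Fin (2 * q) → Fin q) :
    List.ofFn (fun a => (cop (k := k) hq t π a : ℕ)) = tabM q k (List.ofFn fun a => (π a : ℕ)) := by
  have hl : (List.ofFn fun a => (π a : ℕ)).length = 2 * q := List.length_ofFn
  refine List.ext_getElem ?_ fun i h1 h2 => ?_
  · rw [length_tabM, List.length_ofFn, hl]
    ring
  · rw [List.getElem_ofFn, tabM_getElem _ (by rw [hl]; omega), List.getElem_ofFn, cop_val]
    simp only [hl]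

/-- The game with `k` copies of the labels. -/
def copG (hq : 0 < q) (k : ℕ) (G : Game q) : Game (k * q) :=
  trG one_pos (cop hq) (fun t π h => cop_two hq t π h) G

/-- The data of the game with `k` copies of the labels. -/
def copP (q k : ℕ) (l : List Rw) : List Rw :=
  l.map fun r => ((r.1, r.2.1, tabM q k r.2.2.1, r.2.2.2) : Rw)

lemma copG_raw (hq : 0 < q) (G : Game q) :
    (copG hq k G).cons.map raw = copP q k (G.cons.map raw) := by
  have h : (copG hq k G).cons = trL (cop hq) G.cons := rfl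
  rw [h]
  unfold trL copP
  rw [List.map_flatMap, List.map_map, ← List.flatMap_pure_eq_map]
  refine List.flatMap_congr fun c _ => ?_
  have h1 : List.finRange 1 = [0] := rfl
  rw [h1, List.map_singleton, List.map_singleton]
  unfold Function.comp trC raw
  dsimp only
  rw [ofFn_cop]
  rfl

lemma copP_PT (q k : ℕ) : PT ∅ (copP q k) := by
  unfold copP
  refine PT.map (f := fun (_ : List Rw) (r : Rw) =>
    ((r.1, r.2.1, tabM q k r.2.2.1, r.2.2.2) : Rw)) PT.id ?_
  have hr : PT (∅ : Set Word) (fun p : List Rw × Rw => p.2) := PT.snd'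
  refine hr.fst.pair (hr.snd.fst.pair (PT.pair ?_ hr.snd.snd.snd))
  unfold tabM
  refine PT.flatMapConst (List.range k) (f := fun (d : ℕ) (p : List Rw × Rw) =>
    p.2.2.2.1.map (· + q * d)) fun d _ => ?_
  exact PT.map (f := fun (_ : List Rw × Rw) (x : ℕ) => x + q * d) hr.snd.snd.fst
    (PT.add PT.snd' (PT.const _))

/-- **Multiples.** -/
theorem GapHard_mul (hq : 0 < q) (hk : 0 < k) {s : ℝ} (h : GapHard q 1 s) :
    GapHard (k * q) 1 s := by
  have hkq : 0 < k * q := Nat.mul_pos hk hq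
  have hle : q ≤ k * q := Nat.le_mul_of_pos_left q hk
  refine gapHard_map (copG hq k) (copP q k) (copP_PT q k) (copG_raw hq) (fun G => ?_)
    (fun G hG => ?_) h
  · refine le_trG_value one_pos hq (fun a => ⟨(a : ℕ), by have := a.2; omega⟩)
      (fun b => ⟨(b : ℕ), by have := b.2; omega⟩) (fun t π a b hab => ?_) G
    rw [cop_iff]
    have h1 : (⟨(a : ℕ) % (2 * q), Nat.mod_lt _ (by omega)⟩ : Fin (2 * q)) = a :=
      Fin.ext (Nat.mod_eq_of_lt a.2)
    refine ⟨(congrArg π h1).trans (hab.trans (Fin.ext (Nat.mod_eq_of_lt b.2).symm)), ?_⟩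
    dsimp only
    rw [Nat.div_eq_of_lt a.2, Nat.div_eq_of_lt b.2]
  · have h2 := trG_value_le (m := 1) one_pos hkq
      (T := cop hq) (hT := fun t π h => cop_two hq t π h)
      (fun a => ⟨(a : ℕ) % (2 * q), Nat.mod_lt _ (by omega)⟩)
      (fun b => ⟨(b : ℕ) % q, Nat.mod_lt _ hq⟩) (κ := 0) (Nat.zero_le _)
      (fun π a b hab => by
        rw [Nat.le_zero, List.countP_eq_zero]
        intro t _ h3
        exact hab ((cop_iff hq t π a b).1 (of_decide_eq_true h3)).1) hG
    rw [Nat.cast_zero, zero_mul, zero_div, add_zero] at h2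
    exact h2

end mul

/-! ### All large alphabets -/

lemma GapHard_mono {q : ℕ} {s s' : ℝ} (hs : s ≤ s') (h : GapHard q 1 s) : GapHard q 1 s' := by
  obtain ⟨f, hf, hf'⟩ := h
  exact ⟨f, hf, fun φ => ⟨(hf' φ).1, fun hφ => ((hf' φ).2 hφ).trans hs⟩⟩

/-- From one alphabet to all large alphabets. -/
theorem gapHard_large {q' : ℕ} {s s' : ℝ} (hq : 0 < q') (hs : s' < s) (h : GapHard q' 1 s') :
    ∃ q0 : ℕ, ∀ q : ℕ, q0 ≤ q → GapHard q 1 s := by
  obtain ⟨n, hn⟩ := exists_nat_gt ((1 - s') / (s - s'))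
  refine ⟨q' + (n + 1), fun q hq0 => ?_⟩
  obtain ⟨m, rfl⟩ : ∃ m, q = q' + m := ⟨q - q', by omega⟩
  have hm : 0 < m := by omega
  refine GapHard_mono ?_ (GapHard_add hq hm h)
  have h1 : (n : ℝ) ≤ m := by
    have : n ≤ m := by omega
    exact_mod_cast this
  have hmR : (0 : ℝ) < m := by exact_mod_cast hm
  have h2 : 0 < s - s' := by linarith
  rw [div_lt_iff₀ h2] at hn
  have h3 : (1 - s') / m ≤ s - s' := by
    rw [div_le_iff₀ hmR]
    nlinarith
  linarith

/-- **Above the threshold, all large alphabets are hard.** -/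
theorem gapHard_of_sStar_lt {s : ℝ} (hs : sStar < s) :
    ∃ q0 : ℕ, ∀ q : ℕ, q0 ≤ q → GapHard q 1 s := by
  have hne : {s : ℝ | 0 < s ∧ s < 1 ∧ ∃ q : ℕ, 2 ≤ q ∧ GapHard q 1 s}.Nonempty := by
    have h2 : Real.sqrt 2 < 2 := by
      rw [Real.sqrt_lt' (by norm_num)]
      norm_num
    obtain ⟨q, hq, h⟩ := gapHard2 (s := 9 / 10) (by linarith)
    exact ⟨9 / 10, by norm_num, by norm_num, q, hq, h⟩
  unfold sStar at hs
  obtain ⟨s', ⟨-, -, q', hq', h⟩, hlt⟩ := exists_lt_of_csInf_lt hne hs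
  exact gapHard_large (by omega) hlt h

/-- **NP-hardness of `Gap_q(1, s)` for every `s > (10 + √2) / 14` and all large `q`.** -/
theorem gapHard2_large {s : ℝ} (hs : (10 + Real.sqrt 2) / 14 < s) :
    ∃ q0 : ℕ, ∀ q : ℕ, q0 ≤ q → GapHard q 1 s :=
  gapHard_of_sStar_lt (sStar_le2.trans_lt hs)

end Vale.Agent.P339.R2.H375.Al
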