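import Vale.Agent.P339.R2.H375.Defs

/-!
P339: the linear test on the tables of the second kind, one line.
-/

namespace Vale.Agent.P339.R2.H375

open Finset Vale.Agent.Lib.PCP Vale.Agent.Lib.PCP.HA Vale.Agent.P339.H283 Vale.Agent.P339.H937

variable {l k nA : ℕ}

/-- Exact agreement of a table of the second kind with the affine function `g`. -/
noncomputable def fe (R : (Fin k × Fin nA → K l) → K l × ZMod 2) (θ0 θ1 : K l) (β : ZMod 2)
    (g : (Fin k × Fin nA → ZMod 2) × K l) (M : Fin k × Fin nA → K l) : ℝ :=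
  ind ((R M).2 = β ∧ ((R M).1 + aff g M = 0 ∨ (R M).1 + aff g M = th θ0 θ1 β))

/-- The other class of a function which is not compatible with the side. -/
def oth (θ0 θ1 : K l) (β : ZMod 2) (h : (Fin k × Fin nA → ZMod 2) × K l) :
    (Fin k × Fin nA → ZMod 2) × K l := (h.1, h.2 + th θ0 θ1 (β + 1))

/-- The covered points. -/
noncomputable def fc (R : (Fin k × Fin nA → K l) → K l × ZMod 2) (j : Fin k)
    (w : Fin nA → ZMod 2) (θ0 θ1 : K l) (β : ZMod 2)
    (h : (Fin k × Fin nA → ZMod 2) × K l) (M : Fin k × Fin nA → K l) : ℝ :=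
  ind (Cov R j w θ0 θ1 β h M)

/-- The difference of the two classes. -/
noncomputable def gd (R : (Fin k × Fin nA → K l) → K l × ZMod 2) (θ0 θ1 : K l) (β : ZMod 2)
    (h : (Fin k × Fin nA → ZMod 2) × K l) (M : Fin k × Fin nA → K l) : ℝ :=
  fe R θ0 θ1 β h M - fe R θ0 θ1 β (oth θ0 θ1 β h) M

/-- The average over a line. -/
noncomputable def al {I : Type} [Fintype I] [DecidableEq I] (f : (I → K l) → ℝ) (M : I → K l)
    (y : I → ZMod 2) : ℝ := avg fun φ : K l => f (M + tns y φ)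

/-- The squares of the agreements on a line. -/
noncomputable def lineZ2 (R : (Fin k × Fin nA → K l) → K l × ZMod 2) (j : Fin k)
    (w : Fin nA → ZMod 2) (θ0 θ1 : K l)
    (H : ZMod 2 → Finset ((Fin k × Fin nA → ZMod 2) × K l)) (M : Fin k × Fin nA → K l)
    (y : Fin k × Fin nA → ZMod 2) : ℝ :=
  ∑ β : ZMod 2, ((∑ z : ZMod 2, 1 / 2 * ∑ m : K l,
      pl2 (rs R j w θ0 θ1 (H β) β) (fun M => (R M).1) (th θ0 θ1 β) M y m z ^ 2) +
    (∑ h ∈ (H β).filter (fun h => Con j w β h.1), al (fc R j w θ0 θ1 β h) M y ^ 2) +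
    ∑ h ∈ (H β).filter (fun h => ¬ Con j w β h.1),
      ((1 / 4 + Real.sqrt (1 / 2) / 4) * al (fc R j w θ0 θ1 β h) M y ^ 2 +
        (1 / 4 + Real.sqrt (1 / 2) / 2) * al (gd R θ0 θ1 β h) M y ^ 2))

lemma th_add {θ0 θ1 : K l} (β : ZMod 2) : th θ0 θ1 β + th θ0 θ1 (β + 1) = θ0 + θ1 := by
  have h1 : (1 : ZMod 2) + 1 = 0 := by decide
  have h2 : ¬ (1 : ZMod 2) = 0 := by decide
  unfold th
  rcases bit_cases β with rfl | rfl
  · rw [zero_add, if_pos rfl, if_neg h2]
  · rw [h1, if_neg h2, if_pos rfl, add_comm]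

lemma th_ne {θ0 θ1 : K l} (h0 : θ0 ≠ 0) (h1 : θ1 ≠ 0) (β : ZMod 2) : th θ0 θ1 β ≠ 0 := by
  unfold th
  split_ifs
  · exact h0
  · exact h1

lemma th_ne' {θ0 θ1 : K l} (h01 : θ0 ≠ θ1) (β : ZMod 2) :
    th θ0 θ1 β ≠ th θ0 θ1 (β + 1) := by
  have h1 : (1 : ZMod 2) + 1 = 0 := by decide
  have h2 : ¬ (1 : ZMod 2) = 0 := by decide
  unfold th
  rcases bit_cases β with rfl | rfl
  · rw [zero_add, if_pos rfl, if_neg h2]
    exact h01
  · rw [h1, if_neg h2, if_pos rfl]
    exact h01.symm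

lemma pair_add {a : K l} {z z' : K l} (h : z = 0 ∨ z = a) (h' : z' = 0 ∨ z' = a) :
    z + z' = 0 ∨ z + z' = a := by
  rcases h with rfl | rfl <;> rcases h' with rfl | rfl
  · left; rw [add_zero]
  · right; rw [zero_add]
  · right; rw [add_zero]
  · left; exact K_add_self _

lemma aff_line (h : (Fin k × Fin nA → ZMod 2) × K l) (M : Fin k × Fin nA → K l)
    (y : Fin k × Fin nA → ZMod 2) (φ : K l) :
    aff h (M + tns y φ) = aff h M + (h.1 ⬝ᵥ y) • φ := by
  unfold aff
  rw [evl_line]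
  abel

lemma al_nonneg {I : Type} [Fintype I] [DecidableEq I] {f : (I → K l) → ℝ} (hf : ∀ M, 0 ≤ f M)
    (M : I → K l) (y : I → ZMod 2) : 0 ≤ al f M y := avg_nonneg fun _ => hf _

/-- `xy` bound with the weights `√(1/2)` and `√2`. -/
lemma half_sq_le {x y a : ℝ} (hx : 0 ≤ x) (ha0 : 0 ≤ a) (ha : a ≤ 1 / 2 * (x + |y|)) :
    a ^ 2 ≤ (1 / 4 + Real.sqrt (1 / 2) / 4) * x ^ 2 + (1 / 4 + Real.sqrt (1 / 2) / 2) * y ^ 2 := by
  set κ := Real.sqrt (1 / 2) with hκ
  have hκ2 : κ ^ 2 = 1 / 2 := Real.sq_sqrt (by norm_num)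
  have hκ0 : 0 < κ := Real.sqrt_pos.2 (by norm_num)
  have h1 : a ^ 2 ≤ (1 / 2 * (x + |y|)) ^ 2 := pow_le_pow_left₀ ha0 ha 2
  have h2 : 2 * (x * |y|) ≤ κ * x ^ 2 + 2 * κ * |y| ^ 2 := by
    have h3 : 0 ≤ (κ * x - |y|) ^ 2 := sq_nonneg _
    have h4 : κ * (2 * (x * |y|)) ≤ κ * (κ * x ^ 2 + 2 * κ * |y| ^ 2) := by
      have e1 : κ * (κ * x ^ 2 + 2 * κ * |y| ^ 2) = κ ^ 2 * x ^ 2 + 2 * κ ^ 2 * |y| ^ 2 := by ring
      rw [e1, hκ2]
      nlinarith
    exact le_of_mul_le_mul_left h4 hκ0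
  have h5 : |y| ^ 2 = y ^ 2 := sq_abs y
  nlinarith

lemma pl2_shift {I : Type} [Fintype I] [DecidableEq I] (u : (I → K l) → ℝ)
    (G : (I → K l) → K l) (θ : K l) (M : I → K l) (y : I → ZMod 2) (m : K l) (b : ZMod 2) :
    pl2 u G θ M y (m + θ) b = pl2 u G θ M y m b := by
  unfold pl2
  refine avg_congr fun φ => ?_
  congr 1
  refine ind_congr ?_
  have e1 : G (M + tns y φ) + (m + θ + b • φ) = (G (M + tns y φ) + (m + b • φ)) + θ := by abel
  rw [e1]
  constructor
  · rintro (h | h)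
    · right; exact K_add_eq_zero.1 h
    · left
      have : G (M + tns y φ) + (m + b • φ) + θ + θ = θ + θ := by rw [h]
      rwa [add_assoc, K_add_self, add_zero] at this
  · rintro (h | h)
    · right; rw [h, zero_add]
    · left; rw [h, K_add_self]

lemma pl2_sq_le {I : Type} [Fintype I] [DecidableEq I] (u : (I → K l) → ℝ)
    (G : (I → K l) → K l) {θ : K l} (hθ : θ ≠ 0) (M : I → K l) (y : I → ZMod 2) (m : K l)
    (b : ZMod 2) : pl2 u G θ M y m b ^ 2 ≤ 1 / 2 * ∑ m, pl2 u G θ M y m b ^ 2 := by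
  have hne : m ≠ m + θ := fun h => hθ (left_eq_add.1 h)
  have h1 : ∑ x ∈ ({m, m + θ} : Finset (K l)), pl2 u G θ M y x b ^ 2 ≤
      ∑ x, pl2 u G θ M y x b ^ 2 :=
    Finset.sum_le_sum_of_subset_of_nonneg (Finset.subset_univ _) fun _ _ _ => sq_nonneg _
  rw [Finset.sum_pair hne, pl2_shift] at h1
  linarith

lemma ind_or_excl {A B C : Prop} [Decidable A] [Decidable B] [Decidable C] (h : A ↔ B ∨ C)
    (hx : ¬ (B ∧ C)) : ind A = ind B + ind C := by
  by_cases hB : B
  · have hC : ¬ C := fun hC => hx ⟨hB, hC⟩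
    rw [ind_true (h.2 (Or.inl hB)), ind_true hB, ind_false hC, add_zero]
  · by_cases hC : C
    · rw [ind_true (h.2 (Or.inr hC)), ind_false hB, ind_true hC, zero_add]
    · have hA : ¬ A := fun hA => (h.1 hA).elim hB hC
      rw [ind_false hA, ind_false hB, ind_false hC, add_zero]

lemma fe_oth_add {R : (Fin k × Fin nA → K l) → K l × ZMod 2} {j : Fin k}
    {w : Fin nA → ZMod 2} {θ0 θ1 : K l} (h0 : θ0 ≠ 0) (h1 : θ1 ≠ 0) (h01 : θ0 ≠ θ1)
    {β : ZMod 2} {h : (Fin k × Fin nA → ZMod 2) × K l} (hn : ¬ Con j w β h.1)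
    (M : Fin k × Fin nA → K l) :
    fc R j w θ0 θ1 β h M = fe R θ0 θ1 β h M + fe R θ0 θ1 β (oth θ0 θ1 β h) M := by
  have e0 : (R M).1 + aff (oth θ0 θ1 β h) M = (R M).1 + aff h M + th θ0 θ1 (β + 1) := by
    unfold oth aff
    dsimp only
    abel
  have hz : ∀ z : K l, (z + th θ0 θ1 (β + 1) = 0 ∨ z + th θ0 θ1 (β + 1) = th θ0 θ1 β) ↔
      (z = th θ0 θ1 (β + 1) ∨ z = θ0 + θ1) := by
    intro z
    rw [← th_add (θ0 := θ0) (θ1 := θ1) β, K_add_eq_zero]
    refine or_congr Iff.rfl ?_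
    constructor
    · intro hh
      rw [← hh, add_assoc, K_add_self, add_zero]
    · intro hh
      rw [hh, add_assoc, K_add_self, add_zero]
  have hAB : ∀ z : K l, (z = 0 ∨ z = th θ0 θ1 β) → ¬ (z = th θ0 θ1 (β + 1) ∨ z = θ0 + θ1) := by
    rintro z hA (hB | hB)
    · rcases hA with hA | hA
      · exact th_ne h0 h1 (β + 1) (hB.symm.trans hA)
      · exact th_ne' h01 β (hA.symm.trans hB)
    · rw [← th_add (θ0 := θ0) (θ1 := θ1) β] at hB
      rcases hA with hA | hA
      · rw [hA] at hB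
        exact th_ne' h01 β (K_add_eq_zero.1 hB.symm)
      · rw [hA] at hB
        exact th_ne h0 h1 (β + 1) (left_eq_add.1 hB)
  unfold fc fe
  refine ind_or_excl ?_ ?_
  · rw [e0, hz]
    unfold Cov InG
    constructor
    · rintro ⟨hb, h | h | ⟨_, h⟩⟩
      · exact Or.inl ⟨hb, Or.inl h⟩
      · exact Or.inl ⟨hb, Or.inr h⟩
      · exact Or.inr ⟨hb, h⟩
    · rintro (⟨hb, h | h⟩ | ⟨hb, h⟩)
      · exact ⟨hb, Or.inl h⟩
      · exact ⟨hb, Or.inr (Or.inl h)⟩
      · exact ⟨hb, Or.inr (Or.inr ⟨hn, h⟩)⟩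
  · rw [e0, hz]
    rintro ⟨⟨_, hA⟩, ⟨_, hB⟩⟩
    exact hAB _ hA hB

/-- Four values. -/
lemma avg_InG_le (j : Fin k) (w : Fin nA → ZMod 2) (θ0 θ1 : K l) (β : ZMod 2)
    (t : Fin k × Fin nA → ZMod 2) (m : K l) :
    (avg fun φ : K l => ind (InG j w θ0 θ1 β t (m + φ))) ≤ 4 / 2 ^ l := by
  have e : ∀ a : K l, (avg fun φ : K l => ind (m + φ = a)) = 1 / 2 ^ l := by
    intro a
    rw [← avg_K_eq (m + a)]
    refine avg_congr fun φ => ind_congr ?_
    constructor
    · rintro rfl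
      rw [← add_assoc, K_add_self, zero_add]
    · rintro rfl
      rw [← add_assoc, K_add_self, zero_add]
  have h1 : ∀ φ : K l, ind (InG j w θ0 θ1 β t (m + φ)) ≤ ind (m + φ = 0) +
      ind (m + φ = th θ0 θ1 β) + ind (m + φ = th θ0 θ1 (β + 1)) + ind (m + φ = θ0 + θ1) := by
    intro φ
    generalize m + φ = z
    by_cases h : InG j w θ0 θ1 β t z
    · rw [ind_true h]
      have n1 := ind_nonneg (z = 0)
      have n2 := ind_nonneg (z = th θ0 θ1 β)
      have n3 := ind_nonneg (z = th θ0 θ1 (β + 1))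
      have n4 := ind_nonneg (z = θ0 + θ1)
      rcases h with h | h | ⟨_, h | h⟩
      · have := ind_true h
        linarith
      · have := ind_true h
        linarith
      · have := ind_true h
        linarith
      · have := ind_true h
        linarith
    · rw [ind_false h]
      exact add_nonneg (add_nonneg (add_nonneg (ind_nonneg _) (ind_nonneg _)) (ind_nonneg _))
        (ind_nonneg _)
  refine (avg_mono h1).trans (le_of_eq ?_)
  rw [avg_add, avg_add, avg_add, e, e, e, e]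
  ring

lemma InG_add' {j : Fin k} {w : Fin nA → ZMod 2} {θ0 θ1 : K l} {β : ZMod 2}
    {t : Fin k × Fin nA → ZMod 2} {z z' : K l} (h : InG j w θ0 θ1 β t z)
    (h' : z' = 0 ∨ z' = th θ0 θ1 β) : InG j w θ0 θ1 β t (z + z') := by
  have ht := th_add (θ0 := θ0) (θ1 := θ1) β
  rcases h' with rfl | rfl
  · rwa [add_zero]
  · rcases h with h | h | ⟨hn, h | h⟩
    · right; left; rw [h, zero_add]
    · left; rw [h, K_add_self]
    · right; right; exact ⟨hn, Or.inr (by rw [h, ← ht, add_comm])⟩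
    · right; right
      refine ⟨hn, Or.inl ?_⟩
      rw [h, ← ht, add_comm (th θ0 θ1 β), add_assoc, K_add_self, add_zero]

lemma lineZ2_part_nonneg (R : (Fin k × Fin nA → K l) → K l × ZMod 2) (j : Fin k)
    (w : Fin nA → ZMod 2) (θ0 θ1 : K l)
    (H : ZMod 2 → Finset ((Fin k × Fin nA → ZMod 2) × K l)) (M : Fin k × Fin nA → K l)
    (y : Fin k × Fin nA → ZMod 2) (β : ZMod 2) :
    0 ≤ (∑ z : ZMod 2, 1 / 2 * ∑ m : K l,
      pl2 (rs R j w θ0 θ1 (H β) β) (fun M => (R M).1) (th θ0 θ1 β) M y m z ^ 2) ∧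
    0 ≤ (∑ h ∈ (H β).filter (fun h => Con j w β h.1), al (fc R j w θ0 θ1 β h) M y ^ 2) ∧
    0 ≤ ∑ h ∈ (H β).filter (fun h => ¬ Con j w β h.1),
      ((1 / 4 + Real.sqrt (1 / 2) / 4) * al (fc R j w θ0 θ1 β h) M y ^ 2 +
        (1 / 4 + Real.sqrt (1 / 2) / 2) * al (gd R θ0 θ1 β h) M y ^ 2) := by
  refine ⟨Finset.sum_nonneg fun _ _ => mul_nonneg (by norm_num) (Finset.sum_nonneg fun _ _ =>
    sq_nonneg _), Finset.sum_nonneg fun _ _ => sq_nonneg _, Finset.sum_nonneg fun _ _ => ?_⟩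
  positivity

/-- One of the three parts of one side bounds the square. -/
lemma le_lineZ2 (R : (Fin k × Fin nA → K l) → K l × ZMod 2) (j : Fin k)
    (w : Fin nA → ZMod 2) (θ0 θ1 : K l)
    (H : ZMod 2 → Finset ((Fin k × Fin nA → ZMod 2) × K l)) (M : Fin k × Fin nA → K l)
    (y : Fin k × Fin nA → ZMod 2) (β : ZMod 2) {a : ℝ}
    (h : a ≤ (∑ z : ZMod 2, 1 / 2 * ∑ m : K l,
      pl2 (rs R j w θ0 θ1 (H β) β) (fun M => (R M).1) (th θ0 θ1 β) M y m z ^ 2) ∨
    a ≤ (∑ h ∈ (H β).filter (fun h => Con j w β h.1), al (fc R j w θ0 θ1 β h) M y ^ 2) ∨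
    a ≤ ∑ h ∈ (H β).filter (fun h => ¬ Con j w β h.1),
      ((1 / 4 + Real.sqrt (1 / 2) / 4) * al (fc R j w θ0 θ1 β h) M y ^ 2 +
        (1 / 4 + Real.sqrt (1 / 2) / 2) * al (gd R θ0 θ1 β h) M y ^ 2)) :
    a ≤ lineZ2 R j w θ0 θ1 H M y := by
  have hp := lineZ2_part_nonneg R j w θ0 θ1 H M y
  unfold lineZ2
  have h2 := Finset.single_le_sum (f := fun β : ZMod 2 => ((∑ z : ZMod 2, 1 / 2 * ∑ m : K l,
      pl2 (rs R j w θ0 θ1 (H β) β) (fun M => (R M).1) (th θ0 θ1 β) M y m z ^ 2) +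
    (∑ h ∈ (H β).filter (fun h => Con j w β h.1), al (fc R j w θ0 θ1 β h) M y ^ 2) +
    ∑ h ∈ (H β).filter (fun h => ¬ Con j w β h.1),
      ((1 / 4 + Real.sqrt (1 / 2) / 4) * al (fc R j w θ0 θ1 β h) M y ^ 2 +
        (1 / 4 + Real.sqrt (1 / 2) / 2) * al (gd R θ0 θ1 β h) M y ^ 2)))
    (fun β _ => add_nonneg (add_nonneg (hp β).1 (hp β).2.1) (hp β).2.2) (Finset.mem_univ β)
  refine le_trans ?_ h2
  obtain ⟨p1, p2, p3⟩ := hp β
  rcases h with h | h | h <;> linarith

/-- **The agreement of a line with a label.** -/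
theorem line_le {R : (Fin k × Fin nA → K l) → K l × ZMod 2} {j : Fin k}
    {w : Fin nA → ZMod 2} {θ0 θ1 : K l} (h0 : θ0 ≠ 0) (h1 : θ1 ≠ 0) (h01 : θ0 ≠ θ1)
    {H : ZMod 2 → Finset ((Fin k × Fin nA → ZMod 2) × K l)} {c : ℝ} (hc : 0 < c)
    (hcard : ∀ β, ((H β).card : ℝ) * c ≤ 1) (M : Fin k × Fin nA → K l)
    (y : Fin k × Fin nA → ZMod 2) (X : K l) (b z : ZMod 2) :
    (avg fun φ : K l => ind (SatN (X + z • φ, b) (R (M + tns y φ)) θ0 θ1)) ≤
      Real.sqrt (lineZ2 R j w θ0 θ1 H M y) + 4 * (1 / c) / 2 ^ l := by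
  have hN : (0 : ℝ) ≤ 4 * (1 / c) / 2 ^ l := by positivity
  have ha0 : 0 ≤ avg fun φ : K l => ind (SatN (X + z • φ, b) (R (M + tns y φ)) θ0 θ1) :=
    avg_nonneg fun _ => ind_nonneg _
  have hsat : ∀ φ : K l, SatN (X + z • φ, b) (R (M + tns y φ)) θ0 θ1 →
      (R (M + tns y φ)).2 = b ∧ ((R (M + tns y φ)).1 + (X + z • φ) = 0 ∨
        (R (M + tns y φ)).1 + (X + z • φ) = th θ0 θ1 b) := by
    rintro φ ⟨e1, e2⟩
    dsimp only at e1 e2
    refine ⟨e1.symm, ?_⟩
    rw [add_comm (R (M + tns y φ)).1]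
    exact e2
  -- the value of an affine function on the line
  have hval : ∀ (h : (Fin k × Fin nA → ZMod 2) × K l) (φ : K l), z = h.1 ⬝ᵥ y →
      (R (M + tns y φ)).1 + aff h (M + tns y φ) =
        ((R (M + tns y φ)).1 + (X + z • φ)) + (X + aff h M) := by
    intro h φ hz
    rw [aff_line, ← hz]
    have : (R (M + tns y φ)).1 + (X + z • φ) + (X + aff h M) =
      (R (M + tns y φ)).1 + (aff h M + z • φ) + (X + X) := by abel
    rw [this, K_add_self, add_zero]
  by_cases hex : ∃ h ∈ H b, z = h.1 ⬝ᵥ y ∧ InG j w θ0 θ1 b h.1 (X + aff h M)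
  · obtain ⟨h, hh, hz, hIn⟩ := hex
    have key : (avg fun φ : K l => ind (SatN (X + z • φ, b) (R (M + tns y φ)) θ0 θ1)) ^ 2 ≤
        lineZ2 R j w θ0 θ1 H M y := by
      by_cases hcon : Con j w b h.1
      · have hIn' : X + aff h M = 0 ∨ X + aff h M = th θ0 θ1 b := by
          rcases hIn with hI | hI | hI
          · exact Or.inl hI
          · exact Or.inr hI
          · exact absurd hcon hI.1
        have e1 : (avg fun φ : K l => ind (SatN (X + z • φ, b) (R (M + tns y φ)) θ0 θ1)) ≤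
            al (fc R j w θ0 θ1 b h) M y := by
          unfold al fc
          refine avg_mono fun φ => ind_mono fun hs => ?_
          obtain ⟨s1, s2⟩ := hsat φ hs
          refine ⟨s1, ?_⟩
          rw [hval h φ hz]
          rcases pair_add s2 hIn' with e | e
          · exact Or.inl e
          · exact Or.inr (Or.inl e)
        refine le_lineZ2 R j w θ0 θ1 H M y b (Or.inr (Or.inl ?_))
        refine (pow_le_pow_left₀ ha0 e1 2).trans ?_
        exact Finset.single_le_sum (f := fun h => al (fc R j w θ0 θ1 b h) M y ^ 2)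
          (fun _ _ => sq_nonneg _) (Finset.mem_filter.2 ⟨hh, hcon⟩)
      · -- the two classes
        have hcl : ∀ g : (Fin k × Fin nA → ZMod 2) × K l, z = g.1 ⬝ᵥ y →
            (X + aff g M = 0 ∨ X + aff g M = th θ0 θ1 b) →
            (avg fun φ : K l => ind (SatN (X + z • φ, b) (R (M + tns y φ)) θ0 θ1)) ≤
              al (fe R θ0 θ1 b g) M y := by
          intro g hzg hg
          unfold al fe
          refine avg_mono fun φ => ind_mono fun hs => ?_
          obtain ⟨s1, s2⟩ := hsat φ hs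
          refine ⟨s1, ?_⟩
          rw [hval g φ hzg]
          exact pair_add s2 hg
        have hsum : al (fc R j w θ0 θ1 b h) M y =
            al (fe R θ0 θ1 b h) M y + al (fe R θ0 θ1 b (oth θ0 θ1 b h)) M y := by
          unfold al
          rw [← avg_add]
          exact avg_congr fun φ => fe_oth_add h0 h1 h01 hcon _
        have hdif : al (gd R θ0 θ1 b h) M y =
            al (fe R θ0 θ1 b h) M y - al (fe R θ0 θ1 b (oth θ0 θ1 b h)) M y := by
          unfold al gd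
          rw [← avg_sub]
        have hle : (avg fun φ : K l => ind (SatN (X + z • φ, b) (R (M + tns y φ)) θ0 θ1)) ≤
            1 / 2 * (al (fc R j w θ0 θ1 b h) M y + |al (gd R θ0 θ1 b h) M y|) := by
          rw [hsum, hdif]
          have hIn' : (X + aff h M = 0 ∨ X + aff h M = th θ0 θ1 b) ∨
              (X + aff (oth θ0 θ1 b h) M = 0 ∨ X + aff (oth θ0 θ1 b h) M = th θ0 θ1 b) := by
            have e0 : X + aff (oth θ0 θ1 b h) M = X + aff h M + th θ0 θ1 (b + 1) := by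
              unfold oth aff
              dsimp only
              abel
            rw [e0]
            rcases hIn with hI | hI | ⟨_, hI | hI⟩
            · exact Or.inl (Or.inl hI)
            · exact Or.inl (Or.inr hI)
            · right; left; rw [hI, K_add_self]
            · right; right
              rw [hI, ← th_add (θ0 := θ0) (θ1 := θ1) b, add_assoc, K_add_self, add_zero]
          rcases hIn' with hI | hI
          · have := hcl h hz hI
            have := le_abs_self (al (fe R θ0 θ1 b h) M y -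
              al (fe R θ0 θ1 b (oth θ0 θ1 b h)) M y)
            linarith
          · have := hcl (oth θ0 θ1 b h) hz hI
            have := neg_abs_le (al (fe R θ0 θ1 b h) M y -
              al (fe R θ0 θ1 b (oth θ0 θ1 b h)) M y)
            linarith
        refine le_lineZ2 R j w θ0 θ1 H M y b (Or.inr (Or.inr ?_))
        refine (half_sq_le (al_nonneg (fun M => ind_nonneg _) M y) ha0 hle).trans ?_
        exact Finset.single_le_sum (f := fun h =>
          ((1 / 4 + Real.sqrt (1 / 2) / 4) * al (fc R j w θ0 θ1 b h) M y ^ 2 +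
            (1 / 4 + Real.sqrt (1 / 2) / 2) * al (gd R θ0 θ1 b h) M y ^ 2))
          (fun _ _ => by positivity) (Finset.mem_filter.2 ⟨hh, hcon⟩)
    have := Real.le_sqrt_of_sq_le key
    linarith
  · push Not at hex
    have e1 : ∀ φ : K l, ind (SatN (X + z • φ, b) (R (M + tns y φ)) θ0 θ1) ≤
        rs R j w θ0 θ1 (H b) b (M + tns y φ) *
          ind ((R (M + tns y φ)).1 + (X + z • φ) = 0 ∨
            (R (M + tns y φ)).1 + (X + z • φ) = th θ0 θ1 b) +
        ∑ h ∈ H b, ind (InG j w θ0 θ1 b h.1 ((X + aff h M) + φ)) := by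
      intro φ
      have hs0 : 0 ≤ ∑ h ∈ H b, ind (InG j w θ0 θ1 b h.1 ((X + aff h M) + φ)) :=
        Finset.sum_nonneg fun _ _ => ind_nonneg _
      have hr0 : 0 ≤ rs R j w θ0 θ1 (H b) b (M + tns y φ) := ind_nonneg _
      by_cases hs : SatN (X + z • φ, b) (R (M + tns y φ)) θ0 θ1
      · obtain ⟨s1, s2⟩ := hsat φ hs
        rw [ind_true hs, ind_true s2, mul_one]
        by_cases hr : ∀ h ∈ H b, ¬ Cov R j w θ0 θ1 b h (M + tns y φ)
        · have : rs R j w θ0 θ1 (H b) b (M + tns y φ) = 1 := ind_true ⟨s1, hr⟩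
          linarith
        · push Not at hr
          obtain ⟨h, hh, hcov⟩ := hr
          have h2 := InG_add' hcov.2 s2
          have h3 : (R (M + tns y φ)).1 + aff h (M + tns y φ) +
              ((R (M + tns y φ)).1 + (X + z • φ)) =
              X + aff h M + (z + h.1 ⬝ᵥ y) • φ := by
            rw [aff_line]
            have : (R (M + tns y φ)).1 + (aff h M + (h.1 ⬝ᵥ y) • φ) +
              ((R (M + tns y φ)).1 + (X + z • φ)) =
              ((R (M + tns y φ)).1 + (R (M + tns y φ)).1) +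
                (X + aff h M + (z • φ + (h.1 ⬝ᵥ y) • φ)) := by abel
            rw [this, K_add_self, zero_add, add_smul]
          rw [h3] at h2
          have hzne : z ≠ h.1 ⬝ᵥ y := by
            intro hz
            refine hex h hh hz ?_
            rw [← hz, CharTwo.add_self_eq_zero, zero_smul, add_zero] at h2
            exact h2
          have hz1 : z + h.1 ⬝ᵥ y = 1 := by
            revert hzne
            generalize h.1 ⬝ᵥ y = z'
            clear * -
            revert z z'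
            decide
          rw [hz1, one_smul] at h2
          have h4 := Finset.single_le_sum (f := fun h : (Fin k × Fin nA → ZMod 2) × K l =>
            ind (InG j w θ0 θ1 b h.1 ((X + aff h M) + φ))) (fun _ _ => ind_nonneg _) hh
          have h5 := ind_true h2
          linarith
      · rw [ind_false hs]
        exact add_nonneg (mul_nonneg hr0 (ind_nonneg _)) hs0
    refine (avg_mono e1).trans ?_
    rw [avg_add, avg_sum]
    refine add_le_add ?_ ?_
    · refine Real.le_sqrt_of_sq_le ?_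
      refine le_lineZ2 R j w θ0 θ1 H M y b (Or.inl ?_)
      have h2 := pl2_sq_le (rs R j w θ0 θ1 (H b) b) (fun M => (R M).1) (th_ne h0 h1 b) M y X z
      refine h2.trans ?_
      exact Finset.single_le_sum (f := fun z : ZMod 2 => 1 / 2 * ∑ m : K l,
        pl2 (rs R j w θ0 θ1 (H b) b) (fun M => (R M).1) (th θ0 θ1 b) M y m z ^ 2)
        (fun _ _ => mul_nonneg (by norm_num) (Finset.sum_nonneg fun _ _ => sq_nonneg _))
        (Finset.mem_univ z)
    · refine (Finset.sum_le_sum fun h _ => avg_InG_le j w θ0 θ1 b h.1 (X + aff h M)).trans ?_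
      rw [Finset.sum_const, nsmul_eq_mul]
      have h2 : ((H b).card : ℝ) ≤ 1 / c := by
        rw [le_div_iff₀ hc]
        exact hcard b
      have h3 : (0 : ℝ) ≤ 4 / 2 ^ l := by positivity
      calc ((H b).card : ℝ) * (4 / 2 ^ l) ≤ 1 / c * (4 / 2 ^ l) :=
            mul_le_mul_of_nonneg_right h2 h3
        _ = 4 * (1 / c) / 2 ^ l := by ring

end Vale.Agent.P339.R2.H375
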