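import Vale.Agent.P339.H937.GameSound

/-!
P339: the linear test on the right vertices of the second kind: definitions.

In the whole folder `V = Fin k × Fin nA → K l`, a table of the second kind for fixed
`(j, w, θ0, θ1)` is a function `R : V → K l × ZMod 2` which is invariant under `dis j w u θ0 θ1`.
-/

namespace Vale.Agent.P339.R2.H375

open Finset Vale.Agent.Lib.PCP Vale.Agent.Lib.PCP.HA Vale.Agent.P339.H283 Vale.Agent.P339.H937

variable {l k nA : ℕ}

/-- The vector of the side `β`. -/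
def th (θ0 θ1 : K l) (β : ZMod 2) : K l := if β = 0 then θ0 else θ1

/-- The support of `t` in the block `j` lies in the side `β`. -/
def Con (j : Fin k) (w : Fin nA → ZMod 2) (β : ZMod 2) (t : Fin k × Fin nA → ZMod 2) : Prop :=
  ∀ a, t (j, a) ≠ 0 → w a = β

instance (j : Fin k) (w : Fin nA → ZMod 2) (β : ZMod 2) (t : Fin k × Fin nA → ZMod 2) :
    Decidable (Con j w β t) := by
  unfold Con
  infer_instance

/-- The shifts which are not seen. -/
def InG (j : Fin k) (w : Fin nA → ZMod 2) (θ0 θ1 : K l) (β : ZMod 2)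
    (t : Fin k × Fin nA → ZMod 2) (z : K l) : Prop :=
  z = 0 ∨ z = th θ0 θ1 β ∨ (¬ Con j w β t ∧ (z = th θ0 θ1 (β + 1) ∨ z = θ0 + θ1))

instance (j : Fin k) (w : Fin nA → ZMod 2) (θ0 θ1 : K l) (β : ZMod 2)
    (t : Fin k × Fin nA → ZMod 2) (z : K l) : Decidable (InG j w θ0 θ1 β t z) := by
  unfold InG
  infer_instance

/-- The table of the second kind agrees at `M` with the affine function `h`, up to `InG`. -/
def Cov (R : (Fin k × Fin nA → K l) → K l × ZMod 2) (j : Fin k) (w : Fin nA → ZMod 2)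
    (θ0 θ1 : K l) (β : ZMod 2) (h : (Fin k × Fin nA → ZMod 2) × K l)
    (M : Fin k × Fin nA → K l) : Prop :=
  (R M).2 = β ∧ InG j w θ0 θ1 β h.1 ((R M).1 + aff h M)

instance (R : (Fin k × Fin nA → K l) → K l × ZMod 2) (j : Fin k) (w : Fin nA → ZMod 2)
    (θ0 θ1 : K l) (β : ZMod 2) (h : (Fin k × Fin nA → ZMod 2) × K l)
    (M : Fin k × Fin nA → K l) : Decidable (Cov R j w θ0 θ1 β h M) := by
  unfold Cov
  infer_instance

/-- The points of the side `β` which are not covered. -/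
noncomputable def rs (R : (Fin k × Fin nA → K l) → K l × ZMod 2) (j : Fin k)
    (w : Fin nA → ZMod 2) (θ0 θ1 : K l) (H : Finset ((Fin k × Fin nA → ZMod 2) × K l))
    (β : ZMod 2) (M : Fin k × Fin nA → K l) : ℝ :=
  ind ((R M).2 = β ∧ ∀ h ∈ H, ¬ Cov R j w θ0 θ1 β h M)

/-- The mass covered by `h`. -/
noncomputable def mc (R : (Fin k × Fin nA → K l) → K l × ZMod 2) (j : Fin k)
    (w : Fin nA → ZMod 2) (θ0 θ1 : K l) (β : ZMod 2)
    (h : (Fin k × Fin nA → ZMod 2) × K l) : ℝ :=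
  avg fun M : Fin k × Fin nA → K l => ind (Cov R j w θ0 θ1 β h M)

/-- The lists of affine functions of a table of the second kind. -/
def IsL (R : (Fin k × Fin nA → K l) → K l × ZMod 2) (j : Fin k) (w : Fin nA → ZMod 2)
    (θ0 θ1 : K l) (H : ZMod 2 → Finset ((Fin k × Fin nA → ZMod 2) × K l)) (c : ℝ) : Prop :=
  (∀ β, ((H β).card : ℝ) * c ≤ 1) ∧
  (∀ β, ∀ h ∈ H β, ∀ h' ∈ H β, h ≠ h' → h.1 ≠ h'.1 ∨ ¬ InG j w θ0 θ1 β h.1 (h.2 + h'.2)) ∧
  ∀ β t g, agr (rs R j w θ0 θ1 (H β) β) (fun M => (R M).1) t g ≤ c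

/-- The mass covered by functions which are compatible with the side. -/
noncomputable def Pm1 (R : (Fin k × Fin nA → K l) → K l × ZMod 2) (j : Fin k)
    (w : Fin nA → ZMod 2) (θ0 θ1 : K l)
    (H : ZMod 2 → Finset ((Fin k × Fin nA → ZMod 2) × K l)) : ℝ :=
  ∑ β, ∑ h ∈ (H β).filter fun h => Con j w β h.1, mc R j w θ0 θ1 β h

/-- The mass covered by functions which are not compatible with the side. -/
noncomputable def Qm1 (R : (Fin k × Fin nA → K l) → K l × ZMod 2) (j : Fin k)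
    (w : Fin nA → ZMod 2) (θ0 θ1 : K l)
    (H : ZMod 2 → Finset ((Fin k × Fin nA → ZMod 2) × K l)) : ℝ :=
  ∑ β, ∑ h ∈ (H β).filter fun h => ¬ Con j w β h.1, mc R j w θ0 θ1 β h

/-- The value of the linear test on the tables of the second kind, at fixed `(j, w, θ0, θ1)`. -/
noncomputable def vCN (R : (Fin k × Fin nA → K l) → K l × ZMod 2) (θ0 θ1 : K l)
    (L : (Fin k × Fin nA → K l) → (Fin k × Fin nA → ZMod 2) → (K l × ZMod 2) × ZMod 2) : ℝ :=
  avg fun y : Fin k × Fin nA → ZMod 2 => avg fun M : Fin k × Fin nA → K l => avg fun φ : K l =>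
    ind (SatN ((L M y).1.1 + (L M y).2 • φ, (L M y).1.2) (R (M + tns y φ)) θ0 θ1)

/-- The value of the first local test at fixed `(j, w)`. -/
noncomputable def vA (G : (Fin k × Fin nA → K l) → K l) (j : Fin k) (w : Fin nA → ZMod 2)
    (L : (Fin k × Fin nA → K l) → K l × ZMod 2) : ℝ :=
  avg fun M : Fin k × Fin nA → K l => avg fun φ : K l =>
    ind (G (M + tns (atb j w) φ) = (L M).1 + (L M).2 • φ)

/-- The value of the second local test at fixed `(j, w, θ0, θ1)`. -/
noncomputable def vN (L R : (Fin k × Fin nA → K l) → K l × ZMod 2) (θ0 θ1 : K l) : ℝ :=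
  avg fun M : Fin k × Fin nA → K l => ind (SatN (L M) (R M) θ0 θ1)

/-- The value of the linear test on the tables of the second kind. -/
noncomputable def valCN
    (r1 : Fin k → (Fin nA → ZMod 2) → K l → K l → (Fin k × Fin nA → K l) → K l × ZMod 2)
    (lC : Fin k → (Fin nA → ZMod 2) → K l → K l → (Fin k × Fin nA → K l) →
      (Fin k × Fin nA → ZMod 2) → (K l × ZMod 2) × ZMod 2) : ℝ :=
  avg fun j : Fin k => avg fun w : Fin nA → ZMod 2 => avg fun θ0 : K l => avg fun θ1 : K l =>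
    vCN (r1 j w θ0 θ1) (nz θ0) (nz θ1) (lC j w θ0 θ1)

/-- The agreement of a line with a label, up to `θ`. -/
noncomputable def pl2 {I : Type} [Fintype I] [DecidableEq I] (u : (I → K l) → ℝ)
    (G : (I → K l) → K l) (θ : K l) (M : I → K l) (y : I → ZMod 2) (m : K l) (b : ZMod 2) : ℝ :=
  avg fun φ : K l => u (M + tns y φ) *
    ind (G (M + tns y φ) + (m + b • φ) = 0 ∨ G (M + tns y φ) + (m + b • φ) = θ)

end Vale.Agent.P339.R2.H375
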